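import Vale.Agent.P011Z.Fund

/-!
Abstract lemmas for the assembly: saturation of a subgroup along a filter, closures.
-/

open Topology Filter

namespace Vale.Agent.P011Z

namespace MA

section sat

variable {G : Type} [Group G]

theorem finiteIndex_comap {G' : Type} [Group G'] (f : G →* G') (H : Subgroup G') [H.FiniteIndex] :
    (H.comap f).FiniteIndex :=
  ⟨by rw [Subgroup.index_comap]; exact Subgroup.FiniteIndex.index_ne_zero⟩

/-- The saturation of a normal subgroup along a filter of small elements. -/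
theorem exists_sat (Λ N : Subgroup G) (hn : ∀ g ∈ Λ, ∀ x ∈ N, g * x * g⁻¹ ∈ N) (𝓕 : Filter G)
    (h1 : pure 1 ≤ 𝓕) (hmul : Tendsto (fun x : G × G => x.1 * x.2) (𝓕 ×ˢ 𝓕) 𝓕)
    (hinv : Tendsto (fun x : G => x⁻¹) 𝓕 𝓕)
    (hconj : ∀ g ∈ Λ, Tendsto (fun x : G => g * x * g⁻¹) 𝓕 𝓕) (hΛ : ∀ᶠ x in 𝓕, x ∈ Λ)
    {F : Set G} (hF : F.Finite) (hW : ∀ᶠ x in 𝓕, ∃ f ∈ F, f⁻¹ * x ∈ N) :
    ∃ Sg : Subgroup G, N.relIndex Sg ≠ 0 ∧ (∀ᶠ x in 𝓕, x ∈ Sg) ∧
      ∀ g ∈ Λ, ∀ x ∈ Sg, g * x * g⁻¹ ∈ Sg := by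
  let Sg : Subgroup G :=
    { carrier := {γ | ∃ᶠ w in 𝓕, γ⁻¹ * w ∈ N}
      one_mem' := (frequently_pure.2 (by simp)).filter_mono h1
      mul_mem' := fun {a b} ha hb => by
        refine hmul.frequently (p := fun w => (a * b)⁻¹ * w ∈ N)
          ((frequently_prod_and.2 ⟨ha, hb.and_eventually hΛ⟩).mono fun x hx => ?_)
        have h := N.mul_mem hx.2.1 (hn _ (Λ.inv_mem hx.2.2) _ hx.1)
        simpa [mul_assoc] using h
      inv_mem' := fun {a} ha => by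
        refine hinv.frequently (p := fun w => a⁻¹⁻¹ * w ∈ N)
          ((ha.and_eventually hΛ).mono fun x hx => ?_)
        have h := hn _ hx.2 _ (N.inv_mem hx.1)
        simpa [mul_assoc] using h }
  have mem : ∀ γ, γ ∈ Sg ↔ ∃ᶠ w in 𝓕, γ⁻¹ * w ∈ N := fun _ => Iff.rfl
  refine ⟨Sg, ?_, ?_, fun g hg x hx => ?_⟩
  · refine Subgroup.index_ne_zero_iff_finite.2 ?_
    let φ : Sg ⧸ N.subgroupOf Sg → G ⧸ N := fun q => ((q.out : Sg) : G)
    have hφ : Function.Injective φ := fun a b hab => by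
      rw [← QuotientGroup.out_eq' a, ← QuotientGroup.out_eq' b]
      exact QuotientGroup.eq.2 ((QuotientGroup.eq (s := N)).1 hab)
    refine Set.finite_univ_iff.1 (((hF.image fun f : G => (f : G ⧸ N)).preimage hφ.injOn).subset
      fun q _ => ?_)
    obtain ⟨w, hw, f, hf, h⟩ := (((mem _).1 q.out.2).and_eventually hW).exists
    refine ⟨f, hf, QuotientGroup.eq.2 ?_⟩
    simpa [mul_assoc] using N.mul_mem h (N.inv_mem hw)
  · have h2 : ∀ f ∈ F, ∀ᶠ w in 𝓕, f⁻¹ * w ∈ N → w ∈ Sg := by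
      intro f _
      by_cases hf : f ∈ Sg
      · refine Eventually.of_forall fun w hw => ((mem _).1 hf).mono fun x hx => ?_
        simpa [mul_assoc] using N.mul_mem (N.inv_mem hw) hx
      · exact (not_frequently.1 hf).mono fun w hw h => absurd h hw
    filter_upwards [(eventually_all_finite hF).2 h2, hW] with w h3 ⟨f, hf, h⟩ using h3 f hf h
  · refine (hconj g hg).frequently (p := fun w => (g * x * g⁻¹)⁻¹ * w ∈ N)
      (((mem _).1 hx).mono fun w hw => ?_)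
    simpa [mul_assoc] using hn g hg _ hw

end sat

section clo

variable {X : Type} [Group X] [TopologicalSpace X] [IsTopologicalGroup X]

theorem conj_closure {A M : Subgroup X} (h : ∀ a ∈ A, ∀ x ∈ M, a * x * a⁻¹ ∈ M) :
    ∀ a ∈ A.topologicalClosure, ∀ x ∈ M.topologicalClosure,
      a * x * a⁻¹ ∈ M.topologicalClosure := fun _ ha _ hx =>
  map_mem_closure₂' (f := fun a x : X => a * x * a⁻¹) (fun _ => by fun_prop)
    (fun _ => by fun_prop) ha hx h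

variable {G : Type} [Group G] (d : G →* X)

theorem exists_approx {A : Subgroup G} {γ : G} (h : d γ ∈ (A.map d).topologicalClosure)
    {P : G → Prop} (hP : ∀ᶠ x in comap d (𝓝 1), P x) : ∃ σ ∈ A, P (σ⁻¹ * γ) := by
  obtain ⟨V, hV, hVP⟩ := mem_comap.1 hP
  have h1 : (fun y : X => y⁻¹ * d γ) ⁻¹' V ∈ 𝓝 (d γ) :=
    ContinuousAt.preimage_mem_nhds (by fun_prop) (by simpa using hV)
  obtain ⟨_, h2, σ, hσ, rfl⟩ := mem_closure_iff_nhds.1 h _ h1
  exact ⟨σ, hσ, hVP (by simpa using h2)⟩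

theorem closure_inf_nhds {A B : Subgroup G}
    (hA : ((A.map d).topologicalClosure : Set X) ∈ 𝓝 1)
    (hB : ∀ᶠ x in comap d (𝓝 1), x ∈ A → x ∈ B) :
    (((B ⊓ A).map d).topologicalClosure : Set X) ∈ 𝓝 1 := by
  obtain ⟨V, hV, hVP⟩ := mem_comap.1 hB
  obtain ⟨V', h1, h2, h3⟩ := mem_nhds_iff.1 hV
  refine mem_of_superset (inter_mem (h2.mem_nhds h3) hA)
    (h2.inter_closure.trans (closure_mono ?_))
  rintro _ ⟨h4, γ, hγ, rfl⟩
  exact ⟨γ, ⟨hVP (h1 h4) hγ, hγ⟩, rfl⟩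

theorem mem_of_closure {A B : Subgroup G} (hB : ∀ᶠ x in comap d (𝓝 1), x ∈ A → x ∈ B) {γ : G}
    (hγ : γ ∈ A) (h : d γ ∈ ((B ⊓ A).map d).topologicalClosure) : γ ∈ B := by
  obtain ⟨σ, hσ, h1⟩ := exists_approx d h hB
  simpa using B.mul_mem hσ.1 (h1 (A.mul_mem (A.inv_mem hσ.2) hγ))

end clo

theorem hasT_map {B B' : Type} [Group B] [TopologicalSpace B] [Group B'] [TopologicalSpace B']
    {G₁ : Subgroup B} (h : HasT G₁) (φ : B →* B') (hφ : Continuous φ) : HasT (G₁.map φ) := by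
  obtain ⟨C, hC, δ, hδ, h⟩ := h
  refine ⟨φ '' C, hC.image hφ, δ, hδ, fun H _ _ _ π v hv hπ => ?_⟩
  obtain ⟨ξ, h0, hξ⟩ := h H (π.comp φ) v hv fun g hg => hπ _ ⟨g, hg, rfl⟩
  refine ⟨ξ, h0, ?_⟩
  rintro _ ⟨g, hg, rfl⟩
  exact hξ g hg

end MA

end Vale.Agent.P011Z
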