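import Vale.Agent.P011Z.SA
import Vale.Agent.P011Z.LT
import Vale.Agent.P011Z.Main.Abs

/-!
From a finite cover of the small elements to finite index.
-/

open Matrix Topology Filter

namespace Vale.Agent.P011Z

namespace Sys

open MA

variable {n : Type} [Fintype n] [DecidableEq n] {S : Sys n}

theorem lt_closure (hN : S.NoNil) (hS : S.Stable) (hP : S.Prime) {T : Finset Nat.Primes}
    {Δ M : Subgroup (S.mon ℚ)} (hΔ : Δ.relIndex (S.Gam T) ≠ 0) (hle : M ≤ Δ)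
    (hn : ∀ g ∈ Δ, ∀ x ∈ M, g * x * g⁻¹ ∈ M)
    (hM : ((M.map (S.diag T)).topologicalClosure : Set (S.GT T)) ∈ 𝓝 1) :
    (M.map (S.diag T)).topologicalClosure.FiniteIndex := by
  have h1 : Coc (Δ.map (S.diag T)).topologicalClosure := by
    refine (coc_Gam hN hS (trNd_of_noNil hN) T).of_relIndex fun hz => hΔ ?_
    rw [← Subgroup.relIndex_comap] at hz
    exact Subgroup.relIndex_eq_zero_of_le_left
      (Subgroup.map_le_iff_le_comap.1 (Subgroup.le_topologicalClosure _)) hz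
  have := h1.finiteIndex (Subgroup.isOpen_of_mem_nhds _
    (mem_of_superset hM (closure_mono (Subgroup.map_mono hle))))
  refine lt_GT (B := (Δ.map (S.diag T)).topologicalClosure) (trNd_of_noNil hN)
    (noCen_of_prime hP) hM (conj_closure ?_)
  rintro _ ⟨g, hg, rfl⟩ _ ⟨x, hx, rfl⟩
  exact ⟨_, hn g hg x hx, by simp⟩

variable (S) in
/-- The elements which are close to one at infinity and at the primes of `T`. -/
noncomputable def near (T : Finset Nat.Primes) : Filter (S.mon ℚ) := comap (S.diag T) (𝓝 1)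

theorem near_real (T : Finset Nat.Primes) {U : Set (S.mon ℝ)} (hU : U ∈ 𝓝 1) :
    ∀ᶠ γ in S.near T, S.up ℝ γ ∈ U := by
  obtain ⟨W, hW, h⟩ := S.exists_nhds T hU one_pos
  exact mem_comap.2 ⟨W, hW, fun γ hγ => (h γ hγ).1⟩

theorem near_bd (T : Finset Nat.Primes) {ε : ℝ} (hε : 0 < ε) :
    ∀ᶠ γ : S.mon ℚ in S.near T, ∀ q ∈ T, Bd q ε ((γ : Matrix n n ℚ) - 1) := by
  obtain ⟨W, hW, h⟩ := S.exists_nhds T univ_mem hε
  exact mem_comap.2 ⟨W, hW, fun γ hγ => (h γ hγ).2⟩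

theorem near_anti {T T' : Finset Nat.Primes} (h : T ⊆ T') : S.near T' ≤ S.near T := by
  intro V hV
  obtain ⟨W, hW, hWV⟩ := mem_comap.1 hV
  obtain ⟨U, hU, ε, hε, h1⟩ := S.exists_of_nhds hW
  filter_upwards [near_real T' hU, near_bd T' hε] with γ h2 h3
    using hWV (h1 γ h2 fun q hq => h3 q (h hq))

theorem near_inv (T : Finset Nat.Primes) :
    Tendsto (fun x : S.mon ℚ => x⁻¹) (S.near T) (S.near T) := by
  have h : Tendsto (S.diag T) (S.near T) (𝓝 1) := tendsto_comap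
  refine tendsto_comap_iff.2 ?_
  simpa [Function.comp_def] using h.inv

theorem near_Gam (T : Finset Nat.Primes) (p : Nat.Primes) :
    ∀ᶠ γ in S.near T, γ ∈ S.Gam (insert p T) → γ ∈ S.Gam {p} := by
  filter_upwards [near_bd T one_pos, (near_inv T).eventually (near_bd T one_pos)]
    with γ h1 h2 hγ q hq
  by_cases h : q ∈ T
  · exact ⟨CG.bd_one_sub.1 (h1 q h), CG.bd_one_sub.1 (h2 q h)⟩
  · exact hγ q (by simpa [h] using hq)

/-- The saturation of `N` for the topology given by the places other than `p`. -/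
theorem exists_Sg (p : Nat.Primes) (Λ N : Subgroup (S.mon ℚ))
    (hn : ∀ g ∈ Λ, ∀ x ∈ N, g * x * g⁻¹ ∈ N) {K : Set (S.mon ℝ)} (hK : K ∈ 𝓝 1)
    {F : Set (S.mon ℚ)} (hF : F.Finite)
    (hW : ∀ γ ∈ S.Gam {p} ⊓ Λ, S.up ℝ γ ∈ K → ∃ f ∈ F, f⁻¹ * γ ∈ N) :
    ∃ Sg : Subgroup (S.mon ℚ), N.relIndex Sg ≠ 0 ∧ (∀ g ∈ Λ, ∀ x ∈ Sg, g * x * g⁻¹ ∈ Sg) ∧
      ∃ T : Finset Nat.Primes, p ∉ T ∧ ∀ᶠ γ in S.near T, γ ∈ S.Gam {p} ⊓ Λ → γ ∈ Sg := by
  classical
  let Γ : Set (S.mon ℚ) := (S.Gam {p} ⊓ Λ : Subgroup (S.mon ℚ))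
  let 𝓖 : Filter (S.mon ℚ) := ⨅ T : {T : Finset Nat.Primes // p ∉ T}, S.near T.1
  have h1 : ∀ T : {T : Finset Nat.Primes // p ∉ T}, Tendsto (S.diag T.1) (𝓖 ⊓ 𝓟 Γ) (𝓝 1) :=
    fun T => tendsto_comap.mono_left (inf_le_left.trans (iInf_le _ T))
  have h2 : ∀ᶠ γ in 𝓖 ⊓ 𝓟 Γ, γ ∈ S.Gam {p} ⊓ Λ := mem_inf_of_right (mem_principal_self Γ)
  have h3 : ∀ {X : Type} {l : Filter X} {f : X → S.mon ℚ},
      (∀ T : {T : Finset Nat.Primes // p ∉ T}, Tendsto (fun x => S.diag T.1 (f x)) l (𝓝 1)) →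
      (∀ᶠ x in l, f x ∈ S.Gam {p} ⊓ Λ) → Tendsto f l (𝓖 ⊓ 𝓟 Γ) := fun a b =>
    tendsto_inf.2 ⟨tendsto_iInf.2 fun T => tendsto_comap_iff.2 (a T), tendsto_principal.2 b⟩
  obtain ⟨Sg, a, b, c⟩ := exists_sat Λ N hn (𝓖 ⊓ 𝓟 Γ)
    (tendsto_id'.1 (h3 (l := pure 1)
      (fun T => by simpa using tendsto_pure_nhds (S.diag T.1) 1) (eventually_pure.2 (one_mem _))))
    (h3 (fun T => by simpa using ((h1 T).comp tendsto_fst).mul ((h1 T).comp tendsto_snd))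
      (((tendsto_fst.eventually h2).and (tendsto_snd.eventually h2)).mono
        fun x hx => mul_mem hx.1 hx.2))
    (h3 (fun T => by simpa using (h1 T).inv) (h2.mono fun x hx => inv_mem hx))
    (fun g hg => h3
      (fun T => by simpa using ((h1 T).const_mul (S.diag T.1 g)).mul_const (S.diag T.1 g)⁻¹) (by
        obtain ⟨T, hT, δ, hδ, h⟩ := S.exists_conj {p} g ∅ one_pos
        have h4 := (near_bd (S := S) T hδ).filter_mono ((inf_le_left (b := 𝓟 Γ)).trans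
          (iInf_le (fun T : {T : Finset Nat.Primes // p ∉ T} => S.near T.1)
            ⟨T, Finset.disjoint_singleton_left.1 hT⟩))
        filter_upwards [h2, h4] with x h5 h6
        exact ⟨(h x h5.1 h6).1, Λ.mul_mem (Λ.mul_mem hg h5.2) (Λ.inv_mem hg)⟩))
    (h2.mono fun x hx => hx.2) hF (by
      have h4 := (near_real (S := S) ∅ hK).filter_mono ((inf_le_left (b := 𝓟 Γ)).trans
        (iInf_le (fun T : {T : Finset Nat.Primes // p ∉ T} => S.near T.1) ⟨∅, by simp⟩))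
      filter_upwards [h2, h4] with x h5 h6 using hW x h5 h6)
  have : Nonempty {T : Finset Nat.Primes // p ∉ T} := ⟨⟨∅, by simp⟩⟩
  obtain ⟨T, hT⟩ := (mem_iInf_of_directed (f := fun T : {T : Finset Nat.Primes // p ∉ T} =>
    S.near T.1) (fun T T' => ⟨⟨T.1 ∪ T'.1, by simp [T.2, T'.2]⟩,
      near_anti Finset.subset_union_left, near_anti Finset.subset_union_right⟩) _).1
    (eventually_inf_principal.1 b)
  exact ⟨Sg, a, c, T.1, T.2, hT⟩

theorem fin_of_cover (hN : S.NoNil) (hS : S.Stable) (hP : S.Prime) (h0 : S.lie ℚ ≠ ⊥)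
    (Λ : Subgroup (S.mon ℚ)) [Λ.FiniteIndex] {TA : Finset Nat.Primes} (hC : S.Csp Λ TA)
    {p : Nat.Primes} (hp : p ∉ TA) {s : S.mon ℚ_[(p : ℕ)]}
    (hs : S.Hyp ℚ_[(p : ℕ)] ((p : ℕ) : ℚ_[(p : ℕ)]) s) {N : Subgroup (S.mon ℚ)}
    (hn : ∀ g ∈ Λ, ∀ x ∈ N, g * x * g⁻¹ ∈ N) {K : Set (S.mon ℝ)} (hK : K ∈ 𝓝 1)
    {F : Set (S.mon ℚ)} (hF : F.Finite)
    (hW : ∀ γ ∈ S.Gam {p} ⊓ Λ, S.up ℝ γ ∈ K → ∃ f ∈ F, f⁻¹ * γ ∈ N) : N.FiniteIndex := by
  classical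
  obtain ⟨Sg, h1, h2, T, hT, h3⟩ := exists_Sg p Λ N hn hK hF hW
  have hΛ : ∀ {H Δ : Subgroup (S.mon ℚ)}, Λ ⊓ H ≤ Δ → Δ.relIndex H ≠ 0 := fun {H Δ} h hz => by
    have h4 := Subgroup.relIndex_eq_zero_of_le_left h hz
    rw [Subgroup.inf_relIndex_right] at h4
    exact Subgroup.FiniteIndex.index_ne_zero h4
  have h4 : ∀ T', T ⊆ T' → ∀ᶠ γ in S.near T', γ ∈ S.Gam (insert p T') ⊓ Λ → γ ∈ Sg := by
    intro T' h
    filter_upwards [h3.filter_mono (near_anti h), near_Gam T' p] with γ a b c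
      using a ⟨b c.1, c.2⟩
  let M : (T' : Finset Nat.Primes) → Subgroup (S.mon ℚ) := fun T' => Λ ⊓
    ((Sg ⊓ (S.Gam (insert p T') ⊓ Λ)).map (S.diag T')).topologicalClosure.comap (S.diag T')
  have h5 : ∀ T', T ⊆ T' → p ∉ T' → (M T').FiniteIndex := by
    intro T' h hp'
    have := lt_closure hN hS hP (T := T') (Δ := S.Gam (insert p T') ⊓ Λ)
      (M := Sg ⊓ (S.Gam (insert p T') ⊓ Λ))
      (hΛ fun x hx => ⟨S.Gam_mono (Finset.subset_insert _ _) hx.2, hx.1⟩) inf_le_right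
      (fun g hg x hx => ⟨h2 g hg.2 x hx.1,
        Subgroup.mul_mem _ (Subgroup.mul_mem _ hg hx.2) (inv_mem hg)⟩)
      (closure_inf_nhds _ (sa hN hS hP h0 p hs hp'
        (hΛ fun x hx => ⟨S.Gam_mono (by simp) hx.2, hx.1⟩)) (h4 T' h))
    have := finiteIndex_comap (S.diag T')
      ((Sg ⊓ (S.Gam (insert p T') ⊓ Λ)).map (S.diag T')).topologicalClosure
    exact inferInstanceAs (Λ ⊓ _).FiniteIndex
  have h6 : M (T ∪ TA) ≤ Sg := by
    intro γ hγ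
    obtain ⟨T1, hT1⟩ := S.exists_mem_Gam γ
    have hsub : T ∪ TA ⊆ (T ∪ TA ∪ T1).erase p := fun q hq =>
      Finset.mem_erase.2 ⟨fun e => by simp [e, hT, hp] at hq, Finset.mem_union_left _ hq⟩
    have hsub' := Finset.subset_union_left.trans hsub
    obtain ⟨ε, hε, h7⟩ := hC _ inf_le_left (h5 _ hsub' (Finset.notMem_erase _ _))
    obtain ⟨σ, hσ, h8⟩ := exists_approx _ hγ.2 (near_bd (T ∪ TA) hε)
    have h9 := h7 (σ⁻¹ * γ) (mul_mem (inv_mem hσ.2.2) hγ.1)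
      fun q hq => h8 q (Finset.mem_union_right _ hq)
    have h10 : σ⁻¹ * γ ∈ S.Gam (insert p ((T ∪ TA ∪ T1).erase p)) :=
      mul_mem (inv_mem (S.Gam_mono (Finset.insert_subset_insert _ hsub) hσ.2.1))
        (S.Gam_mono (Finset.subset_union_right.trans (Finset.subset_insert_iff.2 subset_rfl)) hT1)
    simpa using Sg.mul_mem hσ.1 (mem_of_closure _ (h4 _ hsub') ⟨h10, h9.1⟩ h9.2)
  have := h5 (T ∪ TA) Finset.subset_union_left (by simp [hT, hp])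
  have := Subgroup.finiteIndex_of_le h6
  refine ⟨?_⟩
  rw [← Subgroup.relIndex_top_right]
  exact Subgroup.relIndex_ne_zero_trans h1
    (by rw [Subgroup.relIndex_top_right]; exact Subgroup.FiniteIndex.index_ne_zero)

end Sys

end Vale.Agent.P011Z
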