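import Vale.Agent.P011Z.Core
import Vale.Agent.P011Z.TLem
import Vale.Agent.P011Z.Main.Fin

/-!
Property (T) and the finite cover of the small elements.
-/

open Matrix Topology Filter

namespace Vale.Agent.P011Z

namespace Sys

open MA

variable {n : Type} [Fintype n] [DecidableEq n] {S : Sys n}

theorem hasT_padic (p : Nat.Primes) (h5 : 5 ≤ (p : ℕ))
    (ρ : SpecialLinearGroup (Fin 3) ℚ_[(p : ℕ)] →* S.mon ℚ_[(p : ℕ)])
    (hρ : ∀ i j hij, Continuous fun t => ρ (el3 i j hij t)) :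
    HasT (plus (ρ (dg3 ((p : ℕ) : ℚ_[(p : ℕ)]) (Nat.cast_ne_zero.2 p.2.ne_zero)))) := by
  obtain ⟨K, hKc, hKo, -⟩ := S.exists_intG p
  have hB := isCompact_closedBall (0 : ℚ_[(p : ℕ)]) 1
  have hm : ∀ t ∈ PadicInt.subring (p : ℕ), t ∈ Metric.closedBall (0 : ℚ_[(p : ℕ)]) 1 :=
    fun t ht => mem_closedBall_zero_iff.2 ht
  refine hasT_of_sl3 (PadicInt.subring (p : ℕ)) _ (fun x => ?_) (fun i => ((i : ℕ) : _))
    (fun i j hij => ?_) ρ K hKc hKo
    (((hB.image (hρ 0 1 (by decide))).union (hB.image (hρ 1 2 (by decide)))).union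
      (hB.image ((hρ 2 0 (by decide)).comp (continuous_const_mul ((p : ℕ) : ℚ_[(p : ℕ)])⁻¹))))
    (fun t ht => .inl (.inl ⟨t, hm t ht, rfl⟩)) (fun t ht => .inl (.inr ⟨t, hm t ht, rfl⟩))
    (fun t ht => .inr ⟨t, hm t ht, rfl⟩) (natCast_mem _ _)
  · have h := ((tendsto_pow_atTop_nhds_zero_of_norm_lt_one
      (Padic.norm_p_lt_one (p := (p : ℕ)))).mul_const x).norm
    rw [zero_mul, norm_zero] at h
    exact (h.eventually (eventually_le_nhds one_pos)).exists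
  · have h1 : ‖(((i : ℕ) - (j : ℕ) : ℤ) : ℚ_[(p : ℕ)])‖ = 1 := by
      refine le_antisymm (Padic.norm_int_le_one _) (not_lt.1 fun h => hij (Fin.ext ?_))
      have h2 := Int.eq_zero_of_abs_lt_dvd (Padic.norm_intCast_lt_one_iff.1 h)
        (by have := i.2; have := j.2; rw [abs_lt]; constructor <;> omega)
      omega
    have h2 : IsUnit (((i : ℕ) : ℤ_[(p : ℕ)]) - (j : ℕ)) := by
      rw [PadicInt.isUnit_iff, PadicInt.norm_def]
      simpa using h1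
    exact h2

theorem exists_cover (hN : S.NoNil) (hS : S.Stable) (hP : S.Prime) (Λ : Subgroup (S.mon ℚ))
    [Λ.FiniteIndex] (p : Nat.Primes) (G : Subgroup (S.mon ℚ_[(p : ℕ)])) [G.Normal]
    (hG : IsOpen (G : Set (S.mon ℚ_[(p : ℕ)]))) (hT : HasT G) {N : Subgroup (S.mon ℚ)}
    (hle : N ≤ Λ) (hn : ∀ g ∈ Λ, ∀ x ∈ N, g * x * g⁻¹ ∈ N)
    (hx : ∃ x ∈ N, ¬ S.Cent ℚ (x : Matrix n n ℚ)) {K : Set (S.mon ℝ)} (hK : IsCompact K) :
    ∃ F : Set (S.mon ℚ), F.Finite ∧ ∀ γ ∈ S.Gam {p} ⊓ Λ, S.up ℝ γ ∈ K →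
      S.up ℚ_[(p : ℕ)] γ ∈ G → ∃ f ∈ F, f⁻¹ * γ ∈ N := by
  classical
  let q : ({p} : Finset Nat.Primes) := ⟨p, Finset.mem_singleton_self p⟩
  let e := Pi.evalMonoidHom (fun r : ({p} : Finset Nat.Primes) => S.mon ℚ_[(r.1 : ℕ)]) q
  let φ := MonoidHom.mulSingle (fun r : ({p} : Finset Nat.Primes) => S.mon ℚ_[(r.1 : ℕ)]) q
  have he : Continuous e := continuous_apply q
  have hφ : Continuous φ :=
    continuous_mulSingle (A := fun r : ({p} : Finset Nat.Primes) => S.mon ℚ_[(r.1 : ℕ)]) q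
  have h1 : ∀ H : Subgroup (S.mon ℚ_[(p : ℕ)]), H.comap e = H.map φ := fun H => by
    have h : ∀ x, φ x q = x := fun x => Pi.mulSingle_eq_same
      (M := fun r : ({p} : Finset Nat.Primes) => S.mon ℚ_[(r.1 : ℕ)]) q x
    ext x
    refine ⟨fun hx => ⟨x q, hx, funext fun r => ?_⟩, ?_⟩
    · rw [Subsingleton.elim r q]
      exact h _
    · rintro ⟨x, hx, rfl⟩
      rwa [← h x] at hx
  have hΛ : ∀ T, Λ.relIndex (S.Gam T) ≠ 0 := fun T => Subgroup.FiniteIndex.index_ne_zero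
  obtain ⟨U, hUc, hUo, -⟩ := S.exists_intG p
  have := S.discrete_Gam {p}
  have : DiscreteTopology ((S.Gam {p} ⊓ Λ).map (S.diag {p})) :=
    DiscreteTopology.of_subset this (Subgroup.map_mono inf_le_left)
  obtain ⟨F, hF⟩ := core ((S.Gam {p} ⊓ Λ).map (S.diag {p})) (N.map (S.diag {p}))
    ((coc_Gam hN hS (trNd_of_noNil hN) {p}).of_relIndex (by
      rw [Subgroup.relIndex_map_map_of_injective _ _ (S.diag_injective _),
        Subgroup.inf_relIndex_left]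
      exact hΛ _))
    (lt_closure hN hS hP (hΛ _) hle hn (nhds_of_normal hN hP Λ hn hx {p}))
    (by
      rintro _ ⟨g, hg, rfl⟩ _ ⟨x, hx, rfl⟩
      exact ⟨_, hn g hg.2 x hx, by simp⟩)
    (by
      rintro _ ⟨x, hx, rfl⟩ hz
      rw [← Subgroup.relIndex_comap] at hz
      refine S.comm_Gam {p} x (Subgroup.relIndex_eq_zero_of_le_right (inf_le_left (b := Λ)) ?_)
      rw [← Subgroup.inf_relIndex_right]
      refine Subgroup.relIndex_eq_zero_of_le_left ?_ hz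
      exact fun γ hγ => ⟨x * γ * x⁻¹,
        ⟨hγ.1, Λ.mul_mem (Λ.mul_mem (hle hx) hγ.2.2) (Λ.inv_mem (hle hx))⟩, by simp⟩)
    (G.comap e) ((G ⊓ U).comap e) (Subgroup.comap_mono inf_le_left)
    (by rw [h1]; exact (hUc.inter_left (G.isClosed_of_isOpen hG)).image hφ)
    ((hG.inter hUo).preimage he) (h1 G ▸ hasT_map hT φ hφ) hK
  refine ⟨_, F.finite_toSet.preimage (S.diag_injective {p}).injOn, fun γ hγ h2 h3 => ?_⟩
  obtain ⟨f, hf, ν, hν, h4⟩ := hF _ ⟨γ, hγ, rfl⟩ h2 h3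
  refine ⟨γ * ν⁻¹, ?_, by simpa using hν⟩
  rw [Set.mem_preimage, map_mul, map_inv, h4]
  simpa using hf

end Sys

end Vale.Agent.P011Z
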